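import Mathlib
import Vale.Agent.Lib.P248.helper37.Q2Defs

/-!
P248 pool (helper35): the cone inequality for compact convex subsets of the positive orthant

`cone_ineq_convex`: for a compact convex `M` in the closed positive orthant of `Fin (n+1) → ℝ`
and a point `y` of `M`: `∑ i, y i * |sec M i| ≤ (n + 1) * |M|`.  Proof by the cones with apex `y`
over the coordinate sections: they lie in `M`, have volume `y i * |sec M i| / (n + 1)`, and two
of them meet in a null set.
-/

open MeasureTheory Set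

namespace Vale.Agent.Lib.P248.H35Q

open Vale.Agent.Lib.P248.H37 Vale.Agent.Lib.P248.H37Q

theorem lintegral_profile (n : ℕ) (h : ℝ) (hh : 0 < h) :
    ∫⁻ t in Ico (0:ℝ) h, ENNReal.ofReal ((1 - t / h) ^ n) = ENNReal.ofReal (h / (n + 1)) := by
  have hcont : Continuous (fun t : ℝ => (1 - t / h) ^ n) := by fun_prop
  have hint : IntegrableOn (fun t : ℝ => (1 - t / h) ^ n) (Ico (0:ℝ) h) :=
    (hcont.integrableOn_Icc).mono_set Ico_subset_Icc_self
  have hnn : 0 ≤ᵐ[volume.restrict (Ico (0:ℝ) h)] (fun t : ℝ => (1 - t / h) ^ n) := by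
    refine (ae_restrict_iff' measurableSet_Ico).mpr (Filter.Eventually.of_forall fun t ht => ?_)
    have h1 : t / h ≤ 1 := (div_le_one hh).mpr ht.2.le
    exact pow_nonneg (by linarith) n
  rw [← ofReal_integral_eq_lintegral_ofReal hint hnn]
  congr 1
  rw [integral_Ico_eq_integral_Ioc, ← intervalIntegral.integral_of_le hh.le]
  have hderiv : ∀ x ∈ uIcc (0:ℝ) h,
      HasDerivAt (fun t : ℝ => -(h / (n + 1)) * (1 - t / h) ^ (n + 1)) ((1 - x / h) ^ n) x := by
    intro x _
    have h1 : HasDerivAt (fun t : ℝ => 1 - t / h) (-(1 / h)) x := by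
      have h0 := ((hasDerivAt_id x).div_const h).const_sub 1
      simpa using h0
    have h2 : HasDerivAt (fun t : ℝ => -(h / (n + 1)) * (1 - t / h) ^ (n + 1))
        (-(h / (n + 1)) * (((n + 1 : ℕ) : ℝ) * (1 - x / h) ^ (n + 1 - 1) * -(1 / h))) x :=
      (h1.pow (n + 1)).const_mul (-(h / (n + 1)))
    refine h2.congr_deriv ?_
    have hn : (n : ℝ) + 1 ≠ 0 := by positivity
    rw [Nat.add_sub_cancel]
    push_cast
    field_simp
  rw [intervalIntegral.integral_eq_sub_of_hasDerivAt hderiv (hcont.intervalIntegrable _ _)]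
  have h0 : (1 - h / h) = 0 := by rw [div_self hh.ne', sub_self]
  rw [h0]
  simp

/-- The cone with apex `y` over the part of `M` in the coordinate hyperplane `p i = 0`. -/
def coneAt {n : ℕ} (M : Set (Fin (n + 1) → ℝ)) (y : Fin (n + 1) → ℝ) (i : Fin (n + 1)) :
    Set (Fin (n + 1) → ℝ) :=
  (fun q : ℝ × (Fin (n + 1) → ℝ) => (1 - q.1) • y + q.1 • q.2) ''
    (Icc (0:ℝ) 1 ×ˢ (M ∩ {p | p i = 0}))

theorem isCompact_coneAt {n : ℕ} (M : Set (Fin (n + 1) → ℝ)) (hcomp : IsCompact M)
    (y : Fin (n + 1) → ℝ) (i : Fin (n + 1)) : IsCompact (coneAt M y i) := by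
  have hcl : IsClosed {p : Fin (n + 1) → ℝ | p i = 0} :=
    isClosed_eq (continuous_apply i) continuous_const
  exact (isCompact_Icc.prod (hcomp.inter_right hcl)).image (by fun_prop)

theorem coneAt_subset {n : ℕ} (M : Set (Fin (n + 1) → ℝ)) (hconv : Convex ℝ M)
    (y : Fin (n + 1) → ℝ) (hy : y ∈ M) (i : Fin (n + 1)) : coneAt M y i ⊆ M := by
  rintro _ ⟨⟨t, b⟩, ⟨ht, hb, -⟩, rfl⟩
  exact hconv hy hb (by linarith [ht.2]) ht.1 (by ring)

/-- On the cone over the `i`-th section: `p i * y j ≤ p j * y i`. -/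
theorem coneAt_coord {n : ℕ} (M : Set (Fin (n + 1) → ℝ)) (hnn : ∀ p ∈ M, ∀ i, 0 ≤ p i)
    (y : Fin (n + 1) → ℝ) (hy : y ∈ M) (i j : Fin (n + 1)) (p : Fin (n + 1) → ℝ)
    (hp : p ∈ coneAt M y i) : p i * y j ≤ p j * y i := by
  obtain ⟨⟨t, b⟩, ⟨ht, hb, hbi⟩, rfl⟩ := hp
  have hbi' : b i = 0 := hbi
  have hbj : 0 ≤ b j := hnn b hb j
  have hyi : 0 ≤ y i := hnn y hy i
  simp only [Pi.add_apply, Pi.smul_apply, smul_eq_mul, hbi', mul_zero, add_zero]
  have h1 : 0 ≤ t * b j * y i := mul_nonneg (mul_nonneg ht.1 hbj) hyi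
  nlinarith

theorem aedisjoint_coneAt {n : ℕ} (M : Set (Fin (n + 1) → ℝ)) (hnn : ∀ p ∈ M, ∀ i, 0 ≤ p i)
    (y : Fin (n + 1) → ℝ) (hy : y ∈ M) (i j : Fin (n + 1)) (hij : i ≠ j) (hyi : 0 < y i) :
    AEDisjoint volume (coneAt M y i) (coneAt M y j) := by
  set f : (Fin (n + 1) → ℝ) →ₗ[ℝ] ℝ :=
    (y j) • (LinearMap.proj i : (Fin (n + 1) → ℝ) →ₗ[ℝ] ℝ) - (y i) • LinearMap.proj j with hf
  have hfa : ∀ p : Fin (n + 1) → ℝ, f p = y j * p i - y i * p j := by
    intro p
    simp [hf]
  have hsub : coneAt M y i ∩ coneAt M y j ⊆ (LinearMap.ker f : Set (Fin (n + 1) → ℝ)) := by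
    rintro p ⟨hpi, hpj⟩
    have h1 := coneAt_coord M hnn y hy i j p hpi
    have h2 := coneAt_coord M hnn y hy j i p hpj
    show p ∈ LinearMap.ker f
    rw [LinearMap.mem_ker, hfa]
    linarith
  have hne : LinearMap.ker f ≠ ⊤ := by
    intro htop
    have hmem : (Pi.single j (1:ℝ) : Fin (n + 1) → ℝ) ∈ LinearMap.ker f := by
      rw [htop]
      exact Submodule.mem_top
    rw [LinearMap.mem_ker, hfa] at hmem
    simp [Pi.single_eq_of_ne hij] at hmem
    exact hyi.ne' hmem
  exact measure_mono_null hsub (Measure.addHaar_submodule volume _ hne)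

/-- The slice of the cone at height `s` contains a homothetic copy of the section. -/
theorem slice_coneAt {n : ℕ} (M : Set (Fin (n + 1) → ℝ)) (y : Fin (n + 1) → ℝ)
    (i : Fin (n + 1)) (hyi : 0 < y i) (s : ℝ) (hs : s ∈ Ico (0:ℝ) (y i)) :
    AffineMap.homothety (fun k => y (i.succAbove k)) (1 - s / y i) '' sec M i
      ⊆ {w : Fin n → ℝ | (Fin.insertNth i s w : Fin (n + 1) → ℝ) ∈ coneAt M y i} := by
  rintro _ ⟨w0, hw0, rfl⟩
  have hr0 : 0 ≤ s / y i := div_nonneg hs.1 hyi.le
  have hr1 : s / y i ≤ 1 := (div_le_one hyi).mpr hs.2.le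
  refine ⟨(1 - s / y i, Fin.insertNth i (0:ℝ) w0), ⟨⟨by linarith, by linarith⟩, hw0, ?_⟩, ?_⟩
  · show (Fin.insertNth i (0:ℝ) w0 : Fin (n + 1) → ℝ) i = 0
    exact ins_same i 0 w0
  · funext k
    rcases Fin.eq_self_or_eq_succAbove i k with rfl | ⟨l, rfl⟩
    · simp only [Pi.add_apply, Pi.smul_apply, smul_eq_mul, ins_same]
      field_simp
      ring
    · simp only [Pi.add_apply, Pi.smul_apply, smul_eq_mul, ins_succ, AffineMap.homothety_apply,
        vsub_eq_sub, vadd_eq_add, Pi.sub_apply]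
      ring

theorem volume_coneAt_ge {n : ℕ} (M : Set (Fin (n + 1) → ℝ)) (hcomp : IsCompact M)
    (y : Fin (n + 1) → ℝ) (i : Fin (n + 1)) (hyi : 0 < y i) :
    ENNReal.ofReal (y i / (n + 1)) * volume (sec M i) ≤ volume (coneAt M y i) := by
  have hC : MeasurableSet (coneAt M y i) := (isCompact_coneAt M hcomp y i).isClosed.measurableSet
  have hmp := (volume_preserving_piFinSuccAbove (fun _ : Fin (n + 1) => ℝ) i).symm
  have hvol : volume (coneAt M y i)
      = ∫⁻ s, volume {w : Fin n → ℝ | (Fin.insertNth i s w : Fin (n + 1) → ℝ) ∈ coneAt M y i} := by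
    rw [← hmp.measure_preimage_equiv (coneAt M y i), Measure.volume_eq_prod,
      Measure.prod_apply (hmp.measurable hC)]
    rfl
  have hmf : Measurable (fun t : ℝ => ENNReal.ofReal ((1 - t / y i) ^ n)) := by fun_prop
  rw [hvol]
  calc ENNReal.ofReal (y i / (n + 1)) * volume (sec M i)
      = (∫⁻ t in Ico (0:ℝ) (y i), ENNReal.ofReal ((1 - t / y i) ^ n)) * volume (sec M i) := by
        rw [lintegral_profile n (y i) hyi]
    _ = ∫⁻ t in Ico (0:ℝ) (y i), ENNReal.ofReal ((1 - t / y i) ^ n) * volume (sec M i) := by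
        rw [lintegral_mul_const _ hmf]
    _ ≤ ∫⁻ t in Ico (0:ℝ) (y i),
          volume {w : Fin n → ℝ | (Fin.insertNth i t w : Fin (n + 1) → ℝ) ∈ coneAt M y i} := by
        refine setLIntegral_mono' measurableSet_Ico (fun t ht => ?_)
        have hr1 : t / y i ≤ 1 := (div_le_one hyi).mpr ht.2.le
        calc ENNReal.ofReal ((1 - t / y i) ^ n) * volume (sec M i)
            = volume (AffineMap.homothety (fun k => y (i.succAbove k)) (1 - t / y i)
                '' sec M i) := by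
              rw [Measure.addHaar_image_homothety, Module.finrank_fin_fun,
                abs_of_nonneg (pow_nonneg (by linarith) n)]
          _ ≤ _ := measure_mono (slice_coneAt M y i hyi t ht)
    _ ≤ ∫⁻ t, volume {w : Fin n → ℝ | (Fin.insertNth i t w : Fin (n + 1) → ℝ) ∈ coneAt M y i} :=
        setLIntegral_le_lintegral _ _

theorem cone_ineq_convex (n : ℕ) (M : Set (Fin (n + 1) → ℝ)) (hcomp : IsCompact M)
    (hconv : Convex ℝ M) (hnn : ∀ p ∈ M, ∀ i, 0 ≤ p i) (y : Fin (n + 1) → ℝ) (hy : y ∈ M) :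
    ∑ i, ENNReal.ofReal (y i) * volume (sec M i) ≤ ((n : ENNReal) + 1) * volume M := by
  classical
  set I : Finset (Fin (n + 1)) := Finset.univ.filter (fun i => 0 < y i) with hI
  have hterm : ∀ i, ENNReal.ofReal (y i) * volume (sec M i)
      ≤ if i ∈ I then ((n : ENNReal) + 1) * volume (coneAt M y i) else 0 := by
    intro i
    by_cases hi : 0 < y i
    · have hmem : i ∈ I := by simp [hI, hi]
      rw [if_pos hmem]
      have h1 := volume_coneAt_ge M hcomp y i hi
      have e : ENNReal.ofReal (y i) = ((n : ENNReal) + 1) * ENNReal.ofReal (y i / (n + 1)) := by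
        have hn : (0:ℝ) < (n : ℝ) + 1 := by positivity
        have e1 : ((n : ENNReal) + 1) = ENNReal.ofReal ((n : ℝ) + 1) := by
          rw [ENNReal.ofReal_add (Nat.cast_nonneg n) zero_le_one, ENNReal.ofReal_natCast,
            ENNReal.ofReal_one]
        rw [e1, ← ENNReal.ofReal_mul hn.le]
        congr 1
        field_simp
      rw [e, mul_assoc]
      exact mul_le_mul_right h1 _
    · have hmem : i ∉ I := by simp [hI, hi]
      rw [if_neg hmem, ENNReal.ofReal_of_nonpos (not_lt.1 hi), zero_mul]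
  have hdisj : Set.Pairwise (↑I)
      (Function.onFun (AEDisjoint volume) (fun i => coneAt M y i)) := by
    intro i hi j _ hij
    have hyi : 0 < y i := by
      have := Finset.mem_coe.1 hi
      simpa [hI] using this
    exact aedisjoint_coneAt M hnn y hy i j hij hyi
  have hmeas : ∀ i ∈ I, NullMeasurableSet (coneAt M y i) volume :=
    fun i _ => (isCompact_coneAt M hcomp y i).isClosed.measurableSet.nullMeasurableSet
  have hunion : volume (⋃ i ∈ I, coneAt M y i) ≤ volume M :=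
    measure_mono (Set.iUnion₂_subset (fun i _ => coneAt_subset M hconv y hy i))
  calc ∑ i, ENNReal.ofReal (y i) * volume (sec M i)
      ≤ ∑ i, (if i ∈ I then ((n : ENNReal) + 1) * volume (coneAt M y i) else 0) :=
        Finset.sum_le_sum (fun i _ => hterm i)
    _ = ∑ i ∈ I, ((n : ENNReal) + 1) * volume (coneAt M y i) := by
        rw [Finset.sum_ite_mem, Finset.univ_inter]
    _ = ((n : ENNReal) + 1) * volume (⋃ i ∈ I, coneAt M y i) := by
        rw [measure_biUnion_finset₀ hdisj hmeas, Finset.mul_sum]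
    _ ≤ ((n : ENNReal) + 1) * volume M := mul_le_mul_right hunion _

end Vale.Agent.Lib.P248.H35Q
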